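import Vale.Agent.P323.F.H109Main
import Vale.Agent.P323.H894.ColAm
import Vale.Agent.P323.H845.Perfect

/-!
# Standard names of sets; the coloured category adds no subset of a standard set (helper80)
-/

set_option autoImplicit false

namespace Vale.Agent.N323

open CategoryTheory Vale.Agent.P323.Z Vale.Agent.P323.F Vale.Agent.P323.F.LN

section
variable {C : Type 1} [Category.{1} C]

/-- The core of the standard name of a set. -/
noncomputable def chkc : ZFSet.{0} → ∀ X : C, Nm C X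
  | a, X => .mk X {b : ZFSet.{0} // b ∈ a} (fun _ => X) (fun _ => X) (fun _ => 𝟙 X)
      (fun _ => 𝟙 X) (fun i => chkc i.1 X)
termination_by a => a
decreasing_by exact i.2

/-- The standard name of a set. -/
noncomputable def chk (a : ZFSet.{0}) (X : C) : LN C X := ⟨𝟙 X, chkc a X⟩

theorem El_mv_chk {X W : C} (a : ZFSet.{0}) (f : X ⟶ W) (c : LN C W) :
    El c (mv f (chk a X)) ↔ ∃ b ∈ a, c = mv f (chk b X) := by
  unfold chk El mv
  rw [chkc]
  constructor
  · rintro ⟨i, w, hw, hc⟩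
    refine ⟨i.1, i.2, ?_⟩
    have hw' : w = f := (Category.id_comp w).symm.trans (hw.trans (Category.id_comp f))
    rw [hc, hw']
    rfl
  · rintro ⟨b, hb, rfl⟩
    exact ⟨⟨b, hb⟩, f, rfl, rfl⟩

theorem chk_mv (a : ZFSet.{0}) : ∀ {X Y : C} (k : X ⟶ Y), feq (mv k (chk a X)) (chk a Y) := by
  induction a using ZFSet.inductionOn with
  | _ a ih =>
    intro X Y k
    rw [feq_iff]
    intro Z g
    constructor
    · intro c hc
      rw [← mv_comp, El_mv_chk] at hc
      obtain ⟨b, hb, rfl⟩ := hc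
      have h1 : El (mv g (chk b Y)) (mv g (chk a Y)) := (El_mv_chk _ _ _).2 ⟨b, hb, rfl⟩
      exact fmem_congr (feq_trans (ih b hb g) (feq_symm (ih b hb (k ≫ g)))) (feq_refl _) h1.fmem
    · intro c hc
      rw [El_mv_chk] at hc
      obtain ⟨b, hb, rfl⟩ := hc
      rw [← mv_comp]
      have h1 : El (mv (k ≫ g) (chk b X)) (mv (k ≫ g) (chk a X)) :=
        (El_mv_chk _ _ _).2 ⟨b, hb, rfl⟩
      exact fmem_congr (feq_trans (ih b hb (k ≫ g)) (feq_symm (ih b hb g))) (feq_refl _) h1.fmem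

theorem chk_mem {a b : ZFSet.{0}} (h : b ∈ a) (X : C) : fmem (chk b X) (chk a X) := by
  have h1 : El (mv (𝟙 X) (chk b X)) (mv (𝟙 X) (chk a X)) := (El_mv_chk _ _ _).2 ⟨b, h, rfl⟩
  simpa only [mv_id] using h1.fmem

theorem fmem_chk {X : C} {a : ZFSet.{0}} {c : LN C X} (h : fmem c (chk a X)) :
    Dns (fun Y (k : X ⟶ Y) => ∃ b ∈ a, feq (mv k c) (chk b Y)) := by
  intro Y f
  obtain ⟨Z, g, d, hd, he⟩ := h Y f
  rw [← mv_comp] at hd he
  rw [El_mv_chk] at hd
  obtain ⟨b, hb, rfl⟩ := hd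
  exact ⟨Z, g, b, hb, feq_trans he (chk_mv _ _)⟩

theorem chk_inj {a : ZFSet.{0}} : ∀ {b : ZFSet.{0}} {X : C}, feq (chk a X) (chk b X) → a = b := by
  induction a using ZFSet.inductionOn with
  | _ a ih =>
    intro b X h
    ext z
    constructor
    · intro hz
      obtain ⟨Y, k, e, he, h1⟩ := fmem_chk (fmem_congr (feq_refl _) h (chk_mem hz X)) X (𝟙 X)
      rwa [ih z hz (feq_trans (feq_symm (chk_mv _ _)) h1)]
    · intro hz
      obtain ⟨Y, k, e, he, h1⟩ :=
        fmem_chk (fmem_congr (feq_refl _) (feq_symm h) (chk_mem hz X)) X (𝟙 X)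
      rwa [← ih e he (feq_trans (feq_symm h1) (chk_mv _ _))]

theorem mem_of_chk {a b : ZFSet.{0}} {X : C} (h : fmem (chk b X) (chk a X)) : b ∈ a := by
  obtain ⟨Y, k, e, he, h1⟩ := fmem_chk h X (𝟙 X)
  rwa [chk_inj (feq_trans (feq_symm (chk_mv _ _)) h1)]

/-- The name of the collection of all standard sets. -/
noncomputable def univ (X : C) : LN C X :=
  mkN X (I := ZFSet.{0}) (fun _ => X) (fun _ => 𝟙 X) (fun a => chk a X)

theorem chk_mem_univ {X Y : C} (f : X ⟶ Y) (a : ZFSet.{0}) : fmem (chk a Y) (mv f (univ X)) := by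
  have h : El (mv f (chk a X)) (mv f (univ X)) :=
    (El_mkN _ _ _ f _).2 ⟨a, f, Category.id_comp _, rfl⟩
  exact fmem_congr (chk_mv a f) (feq_refl _) h.fmem

theorem of_mem_univ {X Y : C} (f : X ⟶ Y) {c : LN C Y} (h : fmem c (mv f (univ X))) :
    ∃ (Z : C) (g : Y ⟶ Z) (a : ZFSet.{0}), feq (mv g c) (chk a Z) := by
  obtain ⟨Z, g, d, h1, h2⟩ := mem_El h
  rw [← mv_comp, univ, El_mkN] at h1
  obtain ⟨a, w, -, rfl⟩ := h1
  exact ⟨Z, g, a, feq_trans h2 (chk_mv a w)⟩

/-- Small families of statements can be decided simultaneously. -/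
def SmallDec (C : Type 1) [Category.{1} C] : Prop :=
  ∀ (X : C) (J : Type 1) [Small.{0} J] (R : J → ∀ V : C, (X ⟶ V) → Prop),
    (∀ j V V' (f : X ⟶ V) (g : V ⟶ V'), R j V f → R j V' (f ≫ g)) →
    (∀ j V (f : X ⟶ V), (∀ V' (g : V ⟶ V'), ∃ (V'' : C) (h : V' ⟶ V''), R j V'' (f ≫ g ≫ h)) →
      R j V f) →
    ∃ (Y : C) (f : X ⟶ Y), ∀ j, R j Y f ∨ ∀ V (g : Y ⟶ V), ¬ R j V (f ≫ g)

/-- A name that is forced to be a subset of a standard set is a standard set at an extension. -/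
theorem exists_chk (hD : SmallDec C) {X : C} (σ : LN C X) (a : ZFSet.{0})
    (h : ∀ (Y : C) (f : X ⟶ Y) (c : LN C Y), fmem c (mv f σ) → fmem c (chk a Y)) :
    ∃ (Y : C) (f : X ⟶ Y) (b : ZFSet.{0}), feq (mv f σ) (chk b Y) := by
  obtain ⟨Y, f, hf⟩ := hD X a (fun e V k => fmem (chk e.1 V) (mv k σ))
    (fun e V V' k g hk => by
      rw [mv_comp]
      exact fmem_congr (chk_mv _ _) (feq_refl _) (fmem_mono g hk))
    (fun e V k hk => fmem_local fun V' g => by
      obtain ⟨V'', l, hl⟩ := hk V' g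
      refine ⟨V'', l, fmem_congr (feq_symm (feq_trans (feq_mono l (chk_mv _ _)) (chk_mv _ _)))
        (feq_refl _) ?_⟩
      simpa only [mv_comp] using hl)
  refine ⟨Y, f, a.sep fun e => fmem (chk e Y) (mv f σ), feq_of_ext fun Z g c => ⟨?_, ?_⟩⟩
  · intro hc
    have h1 : fmem c (chk a Z) := h Z (f ≫ g) c (by rwa [mv_comp])
    refine fmem_of_dns (fmem_chk h1) fun W k hk => ?_
    obtain ⟨e, he, h2⟩ := hk
    have h3 : fmem (chk e W) (mv (f ≫ g ≫ k) σ) := by
      rw [mv_comp, mv_comp]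
      exact fmem_congr h2 (feq_refl _) (fmem_mono k hc)
    have h4 : fmem (chk e Y) (mv f σ) := (hf ⟨e, he⟩).resolve_right fun h5 => h5 W (g ≫ k) h3
    exact fmem_congr (feq_symm h2) (feq_symm (feq_trans (feq_mono k (chk_mv _ _)) (chk_mv _ _)))
      (chk_mem (ZFSet.mem_sep.2 ⟨he, h4⟩) W)
  · intro hc
    refine fmem_of_dns (fmem_chk (fmem_congr (feq_refl _) (chk_mv _ _) hc)) fun W k hk => ?_
    obtain ⟨e, he, h2⟩ := hk
    have h3 := fmem_mono k (fmem_mono g (ZFSet.mem_sep.1 he).2)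
    exact fmem_congr (feq_trans (feq_trans (feq_mono k (chk_mv _ _)) (chk_mv _ _)) (feq_symm h2))
      (feq_refl _) h3

end

open Vale.Agent.P323.H894 Vale.Agent.P323.H845 in
/-- In the coloured category, small families of statements are decided by colours alone. -/
theorem smallDec (D : Type 1) [Category.{1} D] [Tw D] : SmallDec (CObj D) := by
  intro X J _ R mono loc
  let q : SCol X.x := ⟨X.p, X.sm⟩
  let S : J → Set (SCol X.x) := fun j => {r : SCol X.x | ∀ h : Col.Le X.p r.1,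
    R j _ (toRc r.2 h) ∨ ∀ V (g : rc X.x r.1 r.2 ⟶ V), ¬ R j V (toRc r.2 h ≫ g)}
  suffices h : (∀ j r r', q ≤ r → r ≤ r' → r ∈ S j → r' ∈ S j) ∧
      ∀ j r, q ≤ r → ∃ r', r ≤ r' ∧ r' ∈ S j by
    obtain ⟨r, hr, h⟩ := exists_meet (smallChains_scol X.x) q S h.1 h.2
    exact ⟨_, toRc r.2 hr, fun j => h j hr⟩
  constructor
  · intro j r r' h0 h1 h2 h3
    have e : toRc r'.2 h3 = toRc r.2 h0 ≫ toRc (X := rc X.x r.1 r.2) r'.2 h1 := by
      apply chom_ext
      exact (Category.id_comp _).symm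
    rcases h2 h0 with h4 | h4
    · left
      rw [e]
      exact mono j _ _ _ _ h4
    · right
      intro V g
      rw [e, Category.assoc]
      exact h4 V _
  · intro j r h0
    by_cases h : ∀ V (g : rc X.x r.1 r.2 ⟶ V), ¬ R j V (toRc r.2 h0 ≫ g)
    · exact ⟨r, le_rfl, fun _ => Or.inr h⟩
    · push Not at h
      obtain ⟨V, g, hg⟩ := h
      have hs : Col.Sm (Col.pull g.u V.p) := P323.H894.sm_pull _ V.sm
      refine ⟨⟨Col.pull g.u V.p, hs⟩, hom_le g, fun h1 => Or.inl ?_⟩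
      let w : rc X.x (Col.pull g.u V.p) hs ⟶ V :=
        mkHom (X := rc X.x (Col.pull g.u V.p) hs) g.u (Col.Le.refl _)
      have e : toRc (X := X) hs h1 ≫ w = toRc r.2 h0 ≫ g := by
        apply chom_ext
        rfl
      have := lemmaC (W := rc X.x (Col.pull g.u V.p) hs)
        (fun {V'} k => R j V' (toRc (X := X) hs h1 ≫ k))
        (fun f k hf => by
          rw [← Category.assoc]
          exact mono j _ _ _ _ hf)
        (fun hl => by
          rw [Category.comp_id]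
          exact loc j _ _ fun V' k => hl k) w rfl (by rw [e]; exact hg)
      rwa [Category.comp_id] at this

end Vale.Agent.N323
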