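import Vale.Agent.P323.F.Valid
import Mathlib

/-!
# The Mostowski collapse, the Tarski-Vaught test, and the universe as a model of ZFC (helper80)
-/

set_option autoImplicit false

namespace Vale.Agent.N323

open Vale.Agent.P323.Z Vale.Agent.P323.F

/-- The Mostowski collapse of a well-founded extensional relation. -/
theorem exists_collapse {M : Type} (E : M → M → Prop) (wf : WellFounded E)
    (ext : ∀ x y, (∀ z, E z x ↔ E z y) → x = y) :
    ∃ π : M → ZFSet.{0}, Function.Injective π ∧ ∀ x z, z ∈ π x ↔ ∃ y, E y x ∧ π y = z := by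
  let π : M → ZFSet.{0} :=
    wf.fix fun x r => ZFSet.range fun y : {y // E y x} => r y.1 y.2
  have hπ : ∀ x z, z ∈ π x ↔ ∃ y, E y x ∧ π y = z := by
    intro x z
    have : π x = ZFSet.range fun y : {y // E y x} => π y.1 := wf.fix_eq _ x
    rw [this, ZFSet.mem_range]
    exact ⟨fun ⟨y, hy⟩ => ⟨y.1, y.2, hy⟩, fun ⟨y, h1, h2⟩ => ⟨⟨y, h1⟩, h2⟩⟩
  refine ⟨π, ?_, hπ⟩
  intro x
  induction x using wf.induction with
  | _ x ih =>
    intro x' h
    refine ext x x' fun z => ⟨fun hz => ?_, fun hz => ?_⟩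
    · have h1 : π z ∈ π x' := h ▸ (hπ x _).2 ⟨z, hz, rfl⟩
      obtain ⟨y, hy, h2⟩ := (hπ x' _).1 h1
      rwa [ih z hz h2.symm]
    · have h1 : π z ∈ π x := h ▸ (hπ x' _).2 ⟨z, hz, rfl⟩
      obtain ⟨y, hy, h2⟩ := (hπ x _).1 h1
      rwa [← ih y hy h2]

/-- The Tarski-Vaught test. -/
theorem tarski_vaught {M N : Type*} {E : M → M → Prop} {E' : N → N → Prop} (j : M → N)
    (hj : Function.Injective j) (h : ∀ x y, E x y ↔ E' (j x) (j y))
    (hs : ∀ (n : ℕ) (φ : Fml (n + 1)) (v : Fin n → M),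
      (∃ c, ¬ φ.Sat E' (Fin.snoc (fun i => j (v i)) c)) →
        ∃ y, ¬ φ.Sat E' (Fin.snoc (fun i => j (v i)) (j y)))
    {n : ℕ} (φ : Fml n) (v : Fin n → M) : φ.Sat E v ↔ φ.Sat E' (fun i => j (v i)) := by
  induction φ with
  | bot => exact Iff.rfl
  | eq i k => exact hj.eq_iff.symm
  | mem i k => exact h _ _
  | imp φ ψ ih1 ih2 => exact imp_congr (ih1 v) (ih2 v)
  | @all n φ ih =>
    have e : ∀ x, (fun i => j ((Fin.snoc v x : Fin (n + 1) → M) i)) =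
        (Fin.snoc (fun i => j (v i)) (j x) : Fin (n + 1) → N) := by
      intro x
      funext i
      refine Fin.lastCases ?_ (fun k => ?_) i
      · simp
      · simp
    rw [Fml.sat_all, Fml.sat_all]
    constructor
    · intro h1 c
      by_contra hc
      obtain ⟨y, hy⟩ := hs n φ v ⟨c, hc⟩
      exact hy (e y ▸ (ih _).1 (h1 y))
    · intro h1 x
      rw [ih, e]
      exact h1 _

/-! ### The universe of sets -/

theorem upair_iff (p x y : ZFSet.{0}) : IsUPair (· ∈ ·) p x y ↔ p = {x, y} := by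
  simp only [IsUPair, ZFSet.ext_iff, ZFSet.mem_pair]

theorem opair_iff (p x y : ZFSet.{0}) : IsOPair (· ∈ ·) p x y ↔ p = ZFSet.pair x y := by
  have e : ({x, x} : ZFSet.{0}) = {x} := by
    ext z
    simp
  simp only [IsOPair, upair_iff, e]
  exact ⟨fun ⟨_, _, h1, h2, h3⟩ => by rw [h3, h1, h2]; rfl, fun h => ⟨_, _, rfl, rfl, h⟩⟩

theorem pairMem_iff (x y f : ZFSet.{0}) : PairMem (· ∈ ·) x y f ↔ ZFSet.pair x y ∈ f := by
  simp only [PairMem, opair_iff]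
  exact ⟨fun ⟨_, h1, h2⟩ => h1 ▸ h2, fun h => ⟨_, rfl, h⟩⟩

/-- The Axiom of Choice holds in the universe of sets. -/
theorem ac_univ : AC (fun x y : ZFSet.{0} => x ∈ y) := by
  intro F hF
  choose g hg using fun B : F => hF B.1 B.2
  refine ⟨ZFSet.range fun B : F => ZFSet.pair B.1 (g B), ZFSet.sUnion F, ⟨fun p hp => ?_, fun x hx => ?_⟩,
    fun B x h => ?_⟩
  · obtain ⟨B, rfl⟩ := ZFSet.mem_range.1 hp
    exact ⟨B.1, g B, B.2, ZFSet.mem_sUnion.2 ⟨B.1, B.2, hg B⟩, (opair_iff _ _ _).2 rfl⟩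
  · refine ⟨g ⟨x, hx⟩, (pairMem_iff _ _ _).2 (ZFSet.mem_range.2 ⟨⟨x, hx⟩, rfl⟩), fun y hy => ?_⟩
    obtain ⟨B, hB⟩ := ZFSet.mem_range.1 ((pairMem_iff _ _ _).1 hy)
    obtain ⟨rfl, rfl⟩ := ZFSet.pair_inj.1 hB
    rfl
  · obtain ⟨B', hB⟩ := ZFSet.mem_range.1 ((pairMem_iff _ _ _).1 h)
    obtain ⟨rfl, rfl⟩ := ZFSet.pair_inj.1 hB
    exact hg B'

/-- A structure in which all formulas that always hold in the universe of sets always hold is a
model of ZF. -/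
theorem isZFModel_of_univ {M : Type*} {E : M → M → Prop}
    (hV : ∀ (n : ℕ) (φ : Fml n), (∀ v : Fin n → ZFSet.{0}, φ.Sat (· ∈ ·) v) →
      ∀ v : Fin n → M, φ.Sat E v) : IsZFModel E := by
  refine WeakZF.isZFModel ⟨?_, ?_, ?_, ?_, ?_, ?_, ?_, ?_⟩
  · intro x y
    exact (sat_extF E ![x, y]).1 (hV _ _ (fun v => (sat_extF _ v).2 ZFSet.ext) ![x, y])
  · rintro x ⟨y, hy⟩
    refine (sat_foundF E ![x, y]).1 (hV _ _ (fun v => (sat_foundF _ v).2 fun h => ?_) ![x, y]) hy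
    obtain ⟨y, h1, h2⟩ := ZFSet.mem_wf.has_min {z | z ∈ v 0} ⟨_, h⟩
    exact ⟨y, h1, h2⟩
  · intro x y
    exact (sat_pairF E ![x, y]).1 (hV _ _ (fun v => (sat_pairF _ v).2
      ⟨{v 0, v 1}, by simp, by simp⟩) ![x, y])
  · intro x
    exact (sat_unionF E ![x]).1 (hV _ _ (fun v => (sat_unionF _ v).2
      ⟨ZFSet.sUnion (v 0), fun y z h1 h2 => ZFSet.mem_sUnion.2 ⟨y, h1, h2⟩⟩) ![x])
  · intro x
    exact (sat_powerF E ![x]).1 (hV _ _ (fun v => (sat_powerF _ v).2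
      ⟨ZFSet.powerset (v 0), fun z h => ZFSet.mem_powerset.2 h⟩) ![x])
  · refine (sat_infF E ![]).1 (hV _ _ (fun v => (sat_infF _ v).2
      ⟨ZFSet.omega, ⟨∅, ZFSet.omega_zero, ZFSet.notMem_empty⟩, fun x hx =>
        ⟨insert x x, ZFSet.omega_succ hx, fun z => ?_⟩⟩) ![])
    rw [ZFSet.mem_insert_iff, or_comm]
  · intro n φ v a
    refine (sat_sepF E φ v a).1 (hV _ _ (fun w => ?_) (Fin.snoc v a))
    rw [← Fin.snoc_init_self w, sat_sepF]
    exact ⟨ZFSet.sep (fun x => φ.Sat (· ∈ ·) (Fin.snoc (Fin.init w) x)) _, fun x => ZFSet.mem_sep⟩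
  · intro n φ v a
    refine (sat_collF E φ v a).1 (hV _ _ (fun w => ?_) (Fin.snoc v a))
    rw [← Fin.snoc_init_self w, sat_collF]
    intro h
    choose g hg using fun x : w (Fin.last n) => h x.1 x.2
    exact ⟨ZFSet.range g, fun x hx => ⟨g ⟨x, hx⟩, ZFSet.mem_range_self _, hg ⟨x, hx⟩⟩⟩

end Vale.Agent.N323
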