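import Vale.Agent.N323.Chk

/-!
# Well-founded generic models (helper80)

The generic sequence of `F/End.lean` is built again with further countable families of tasks:
a name that is forced into a name `ν` of the sequence is made equal to an explicit element of `ν`
(this makes the model well-founded); standard names of given sets, of Skolem witnesses and of
the collection of all standard sets are put on the sequence; a name is made standard if possible.
-/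

set_option autoImplicit false

namespace Vale.Agent.N323

open CategoryTheory Vale.Agent.P323.Z Vale.Agent.P323.F Vale.Agent.P323.F.LN

variable {C : Type 1} [Category.{1} C]

/-! ### The entry relation on core names is well-founded -/

/-- The core of a located name. -/
def co {X : C} (a : LN C X) : Σ B : C, Nm C B := ⟨a.B, a.core⟩

/-- `τ` is the core of an entry of `σ`. -/
def Sub (τ σ : Σ B : C, Nm C B) : Prop := ∃ i : σ.2.I, τ = ⟨σ.2.B i, σ.2.t i⟩

theorem sub_wf : WellFounded (Sub (C := C)) := by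
  refine ⟨fun σ => ?_⟩
  obtain ⟨B, σ⟩ := σ
  refine Nm.ind (P := fun {B} σ => Acc Sub (⟨B, σ⟩ : Σ B : C, Nm C B)) ?_ σ
  intro B σ ih
  refine ⟨_, ?_⟩
  rintro τ ⟨i, rfl⟩
  exact ih i

theorem sub_of_El {X : C} {c a : LN C X} (h : El c a) : Sub (co c) (co a) := by
  obtain ⟨i, w, _, rfl⟩ := h
  exact ⟨i, rfl⟩

/-! ### Generic sequences with further tasks -/

/-- Generic sequences that meet countably many further requirements. -/
theorem exists_gen2 (X0 : C) {J : Type} [Countable J]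
    (R : J → ∀ (X : C) (_ : ℕ → LN C X) (Y : C) (_ : X ⟶ Y) (_ : LN C Y), Prop)
    (hR : ∀ j X ν, ∃ Y f b, R j X ν Y f b) : ∃ G : Gen (atomicOf C),
    ∀ j m, ∃ k, m ≤ k ∧ R j (G.X k) (G.nu k) (G.X (k + 1)) (G.f k) (G.nu (k + 1) k) := by
  have : Nonempty (Task ⊕ J) := ⟨Sum.inl (Sum.inl ⟨0, .bot, fun j => j.elim0⟩)⟩
  obtain ⟨e, he⟩ := exists_enum (Task ⊕ J)
  let P : Task ⊕ J → ∀ (X : C) (_ : ℕ → LN C X) (Y : C) (_ : X ⟶ Y) (_ : LN C Y), Prop :=
    Sum.elim (fun t _ ν _ f b => Req (atomicOf C) t ν f b) R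
  have hP : ∀ t X ν, ∃ Y f b, P t X ν Y f b := by
    rintro (t | j) X ν
    · exact exists_req (atomicOf C) t ν
    · exact hR j X ν
  obtain ⟨X, nu, f, -, h1, h2⟩ := exists_path (LN C) (fun {X Y} f => mv f)
    (fun k => P (e k)) (fun k => hP (e k)) X0 (fun _ => empty X0)
  refine ⟨⟨X, nu, f, h2, ?_, ?_⟩, ?_⟩
  · intro n φ t
    obtain ⟨m, hm⟩ := exists_bound t
    obtain ⟨k, hk, hek⟩ := he (Sum.inl (Sum.inl ⟨n, φ, t⟩)) m
    refine ⟨k + 1, fun j => lt_of_lt_of_le (hm j) (by omega), ?_⟩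
    have h3 := h1 k
    simp only [hek, P, Sum.elim_inl, Req] at h3
    have h4 : (fun j => nu (k + 1) (t j)) = fun j => mv (f k) (nu k (t j)) := by
      funext j
      exact h2 k (t j) (by have := hm j; omega)
    rw [h4]
    exact h3
  · intro n φ t
    obtain ⟨m, hm⟩ := exists_bound t
    obtain ⟨k, hk, hek⟩ := he (Sum.inl (Sum.inr ⟨n, φ, t⟩)) m
    refine ⟨k + 1, fun j => lt_of_lt_of_le (hm j) (by omega), ?_⟩
    have h3 := h1 k
    simp only [hek, P, Sum.elim_inl, Req] at h3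
    have h4 : (fun j => nu (k + 1) (t j)) = fun j => mv (f k) (nu k (t j)) := by
      funext j
      exact h2 k (t j) (by have := hm j; omega)
    rw [h4]
    rcases h3 with h3 | h3
    · exact Or.inl h3
    · exact Or.inr ⟨k, by omega, h3⟩
  · intro j m
    obtain ⟨k, hk, hek⟩ := he (Sum.inr j) m
    have h3 := h1 k
    rw [hek] at h3
    exact ⟨k, hk, h3⟩

/-- The further tasks. -/
abbrev Task2 : Type := (ℕ × ℕ) ⊕ ℕ ⊕ ℕ ⊕ (Σ n : ℕ, Fml (n + 1) × (Fin n → ℕ)) ⊕ Unit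

/-- The further requirements. -/
def Req2 (s : ℕ → ZFSet.{0}) (t : Task2) (X : C) (ν : ℕ → LN C X) (Y : C)
    (f : X ⟶ Y) (b : LN C Y) : Prop :=
  match t with
  | .inl p => fmem (ν p.1) (ν p.2) → El b (mv f (ν p.2)) ∧ feq (mv f (ν p.1)) b
  | .inr (.inl n) => b = chk (s n) Y
  | .inr (.inr (.inl i)) => (∃ (Z : C) (g : X ⟶ Z) (a : ZFSet.{0}), feq (mv g (ν i)) (chk a Z)) →
      ∃ a, feq (mv f (ν i)) (chk a Y)
  | .inr (.inr (.inr (.inl ⟨n, φ, t⟩))) => ∀ v : Fin n → ZFSet.{0},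
      (∀ j, feq (ν (t j)) (chk (v j) X)) → (∃ c, ¬ φ.Sat (· ∈ ·) (Fin.snoc v c)) →
        ∃ c, b = chk c Y ∧ ¬ φ.Sat (· ∈ ·) (Fin.snoc v c)
  | .inr (.inr (.inr (.inr _))) => b = univ Y

theorem exists_req2 (s : ℕ → ZFSet.{0}) (t : Task2) (X : C) (ν : ℕ → LN C X) :
    ∃ (Y : C) (f : X ⟶ Y) (b : LN C Y), Req2 s t X ν Y f b := by
  rcases t with p | n | i | ⟨n, φ, t⟩ | _
  · by_cases h : fmem (ν p.1) (ν p.2)
    · obtain ⟨Y, f, c, h1, h2⟩ := mem_El h
      exact ⟨Y, f, c, fun _ => ⟨h1, h2⟩⟩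
    · exact ⟨X, 𝟙 X, empty X, fun h' => absurd h' h⟩
  · exact ⟨X, 𝟙 X, chk (s n) X, rfl⟩
  · by_cases h : ∃ (Z : C) (g : X ⟶ Z) (a : ZFSet.{0}), feq (mv g (ν i)) (chk a Z)
    · obtain ⟨Z, g, a, h⟩ := h
      exact ⟨Z, g, empty Z, fun _ => ⟨a, h⟩⟩
    · exact ⟨X, 𝟙 X, empty X, fun h' => absurd h' h⟩
  · by_cases h : ∃ v : Fin n → ZFSet.{0}, (∀ j, feq (ν (t j)) (chk (v j) X)) ∧
        ∃ c, ¬ φ.Sat (· ∈ ·) (Fin.snoc v c)
    · obtain ⟨v, hv, c, hc⟩ := h
      refine ⟨X, 𝟙 X, chk c X, fun v' hv' _ => ⟨c, rfl, ?_⟩⟩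
      obtain rfl : v = v' := funext fun j => chk_inj (feq_trans (feq_symm (hv j)) (hv' j))
      exact hc
    · exact ⟨X, 𝟙 X, empty X, fun v hv hc => absurd ⟨v, hv, hc⟩ h⟩
  · exact ⟨X, 𝟙 X, univ X, rfl⟩

section
variable (G : Gen (atomicOf C))

theorem nu_later {i k : ℕ} (h : i < k) :
    ∃ g : G.X (i + 1) ⟶ G.X k, G.nu k i = mv g (G.nu (i + 1) i) := by
  induction k, h using Nat.le_induction with
  | base => exact ⟨𝟙 _, by rw [mv_id]⟩
  | succ l hl ih =>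
    obtain ⟨g, hg⟩ := ih
    refine ⟨g ≫ G.f l, ?_⟩
    rw [G.move l i (by omega), hg, mv_comp]
    rfl

/-- The element `x` of the model is given by the standard name of `a`. -/
def K (x : G.M) (a : ZFSet.{0}) : Prop :=
  ∃ i k, G.cl i = x ∧ i < k ∧ feq (G.nu k i) (chk a (G.X k))

theorem chk_step {i k l : ℕ} {a : ZFSet.{0}} (hkl : k ≤ l) (hi : i < k)
    (h : feq (G.nu k i) (chk a (G.X k))) : feq (G.nu l i) (chk a (G.X l)) := by
  induction l, hkl using Nat.le_induction with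
  | base => exact h
  | succ l hl ih =>
    rw [G.move l i (by omega)]
    exact feq_trans (feq_mono (G.f l) ih) (chk_mv a _)

theorem K_cl {i : ℕ} {a : ZFSet.{0}} (h : K G (G.cl i) a) :
    ∃ m, i < m ∧ ∀ k, m ≤ k → feq (G.nu k i) (chk a (G.X k)) := by
  obtain ⟨j, k, h1, h2, h3⟩ := h
  obtain ⟨l, h4, h5, h6⟩ := G.cl_eq.1 h1
  refine ⟨max k l, by omega, fun n hn => ?_⟩
  exact feq_trans (feq_symm (G.feq_mono_step (by omega) h4 h5 h6)) (chk_step G (by omega) h2 h3)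

theorem K_iff {x y : G.M} {a b : ZFSet.{0}} (hx : K G x a) (hy : K G y b) :
    (x = y ↔ a = b) ∧ (G.E x y ↔ a ∈ b) := by
  obtain ⟨i, rfl⟩ := G.cl_surjective x
  obtain ⟨j, rfl⟩ := G.cl_surjective y
  obtain ⟨m, h1, h2⟩ := K_cl G hx
  obtain ⟨n, h3, h4⟩ := K_cl G hy
  rw [G.cl_eq, G.E_cl]
  refine ⟨⟨?_, ?_⟩, ?_, ?_⟩
  · rintro ⟨k, h5, h6, h7⟩
    have h8 := G.feq_mono_step (le_max_left k (max m n)) h5 h6 h7
    exact chk_inj (feq_trans (feq_symm (h2 _ (by omega))) (feq_trans h8 (h4 _ (by omega))))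
  · rintro rfl
    exact ⟨max m n, by omega, by omega,
      feq_trans (h2 _ (by omega)) (feq_symm (h4 _ (by omega)))⟩
  · rintro ⟨k, h5, h6, h7⟩
    have h8 := G.fmem_mono_step (le_max_left k (max m n)) h5 h6 h7
    exact mem_of_chk (fmem_congr (h2 _ (by omega)) (h4 _ (by omega)) h8)
  · intro h
    exact ⟨max m n, by omega, by omega,
      fmem_congr (feq_symm (h2 _ (by omega))) (feq_symm (h4 _ (by omega))) (chk_mem h _)⟩

variable {s : ℕ → ZFSet.{0}} (hG : ∀ j m, ∃ k, m ≤ k ∧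
  Req2 s j (G.X k) (G.nu k) (G.X (k + 1)) (G.f k) (G.nu (k + 1) k))
include hG

theorem wf_E : WellFounded G.E := by
  have key : ∀ σ : Σ B : C, Nm C B, ∀ j, co (G.nu (j + 1) j : LN C (G.X (j + 1))) = σ →
      Acc G.E (G.cl j) := by
    intro σ
    induction σ using sub_wf.induction with
    | _ σ ih =>
      intro j hj
      refine ⟨_, fun y hy => ?_⟩
      obtain ⟨i, rfl⟩ := G.cl_surjective y
      obtain ⟨m, hi, hjm, hm⟩ := (G.E_cl).1 hy
      obtain ⟨k, hk, h1⟩ := hG (.inl (i, j)) m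
      obtain ⟨h2, h3⟩ := h1 (G.fmem_mono_step hk hi hjm hm)
      have h4 : G.cl k = G.cl i := by
        refine G.cl_eq.2 ⟨k + 1, by omega, by omega, ?_⟩
        rw [G.move k i (by omega)]
        exact feq_symm h3
      rw [← h4]
      refine ih _ ?_ k rfl
      obtain ⟨g, hg⟩ := nu_later G (show j < k by omega)
      have h5 := sub_of_El h2
      have h6 : co (mv (G.f k) (G.nu k j)) = σ := by
        rw [hg]
        exact hj
      rwa [h6] at h5
  refine ⟨fun x => ?_⟩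
  obtain ⟨j, rfl⟩ := G.cl_surjective x
  exact key _ j rfl

/-- A name that can be made standard at all late stages is standard in the model. -/
theorem K_of_dense {i m : ℕ} (hi : i < m) (h : ∀ k, m ≤ k →
    ∃ (Z : C) (g : G.X k ⟶ Z) (a : ZFSet.{0}), feq (mv g (G.nu k i)) (chk a Z)) :
    ∃ a, K G (G.cl i) a := by
  obtain ⟨k, hk, h1⟩ := hG (.inr (.inr (.inl i))) m
  obtain ⟨a, ha⟩ := h1 (h k hk)
  refine ⟨a, i, k + 1, rfl, by omega, ?_⟩
  rw [G.move k i (by omega)]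
  exact ha

theorem K_of_mem {x y : G.M} {b : ZFSet.{0}} (hy : K G y b) (h : G.E x y) : ∃ a, K G x a := by
  obtain ⟨i, rfl⟩ := G.cl_surjective x
  obtain ⟨j, rfl⟩ := G.cl_surjective y
  obtain ⟨n, h3, h4⟩ := K_cl G hy
  obtain ⟨l, h5, h6, h7⟩ := (G.E_cl).1 h
  refine K_of_dense G hG (m := max n l) (by omega) fun k hk => ?_
  have h8 := fmem_congr (feq_refl _) (h4 k (by omega)) (G.fmem_mono_step (by omega) h5 h6 h7)
  obtain ⟨Z, g, a, -, ha⟩ := fmem_chk h8 _ (𝟙 _)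
  exact ⟨Z, _, a, ha⟩

theorem K_of_sub (hD : SmallDec C) {x y : G.M} {b : ZFSet.{0}} (hy : K G y b)
    (h : ∀ z, G.E z x → G.E z y) : ∃ a, K G x a := by
  obtain ⟨i, rfl⟩ := G.cl_surjective x
  obtain ⟨j, rfl⟩ := G.cl_surjective y
  obtain ⟨n, h3, h4⟩ := K_cl G hy
  let φ : Fml 2 := .all (.imp (.mem 2 0) (.mem 2 1))
  obtain ⟨l, h5, h6⟩ := (G.truth φ ![i, j]).1 h
  have h9 : i < l := h5 0
  refine K_of_dense G hG (m := max n l) (by omega) fun k hk => ?_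
  refine exists_chk hD _ b fun Y f c hc => ?_
  have h7 := G.mono_step φ ![i, j] (show l ≤ k by omega) h5 h6 Y f c Y (𝟙 Y)
  have h8 : fmem (mv (𝟙 Y) c) (mv (𝟙 Y) (mv f (G.nu k j))) := h7 (fmem_mono (𝟙 Y) hc)
  rw [mv_id, mv_id] at h8
  exact fmem_congr (feq_refl _) (feq_trans (feq_mono f (h4 k (by omega))) (chk_mv _ _)) h8

theorem K_skolem {n : ℕ} (φ : Fml (n + 1)) (x : Fin n → G.M) (v : Fin n → ZFSet.{0})
    (hx : ∀ j, K G (x j) (v j)) (h : ∃ c, ¬ φ.Sat (· ∈ ·) (Fin.snoc v c)) :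
    ∃ y c, K G y c ∧ ¬ φ.Sat (· ∈ ·) (Fin.snoc v c) := by
  choose t m _ h1 h2 using hx
  obtain ⟨l, hl⟩ := exists_bound m
  obtain ⟨k, hk, h3⟩ := hG (.inr (.inr (.inr (.inl ⟨n, φ, t⟩)))) l
  obtain ⟨c, h4, h5⟩ := h3 v (fun j => chk_step G (by have := hl j; omega) (h1 j) (h2 j)) h
  exact ⟨G.cl k, c, ⟨k, k + 1, rfl, by omega, by rw [h4]; exact feq_refl _⟩, h5⟩

theorem K_univ : ∃ u : G.M, ∀ x, G.E x u ↔ ∃ a, K G x a := by
  obtain ⟨j, -, hj⟩ := hG (.inr (.inr (.inr (.inr ())))) 0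
  have hj' : G.nu (j + 1) j = univ (G.X (j + 1)) := hj
  refine ⟨G.cl j, fun x => ?_⟩
  obtain ⟨i, rfl⟩ := G.cl_surjective x
  constructor
  · intro h
    obtain ⟨l, h5, h6, h7⟩ := (G.E_cl).1 h
    refine K_of_dense G hG h5 fun k hk => ?_
    have h8 := G.fmem_mono_step hk h5 h6 h7
    obtain ⟨g, hg⟩ := nu_later G (show j < k by omega)
    rw [hg, hj'] at h8
    exact of_mem_univ g h8
  · rintro ⟨a, ha⟩
    obtain ⟨m, h1, h2⟩ := K_cl G ha
    refine (G.E_cl).2 ⟨max m (j + 1), by omega, by omega, ?_⟩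
    obtain ⟨g, hg⟩ := nu_later G (show j < max m (j + 1) by omega)
    rw [hg, hj']
    exact fmem_congr (feq_symm (h2 _ (by omega))) (feq_refl _) (chk_mem_univ g a)

end

/-- A countable well-founded structure in which all valid formulas are true, with the relation
`K x a`: the element `x` is given by the standard name of the set `a`. -/
theorem exists_wf_model (hD : SmallDec C) (X0 : C) (A : Set ZFSet.{0}) (hc : A.Countable) :
    ∃ (M : Type) (E : M → M → Prop) (K : M → ZFSet.{0} → Prop) (u : M),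
      Countable M ∧ WellFounded E ∧
      (∀ (n : ℕ) (φ : Fml n), Valid (atomicOf C) φ → ∀ v : Fin n → M, φ.Sat E v) ∧
      (∀ x y a b, K x a → K y b → (x = y ↔ a = b) ∧ (E x y ↔ a ∈ b)) ∧
      (∀ x y b, K y b → (E x y ∨ ∀ z, E z x → E z y) → ∃ a, K x a) ∧
      (∀ a ∈ A, ∃ x, K x a) ∧
      (∀ (n : ℕ) (φ : Fml (n + 1)) (x : Fin n → M) (v : Fin n → ZFSet.{0}), (∀ j, K (x j) (v j)) →
        (∃ c, ¬ φ.Sat (· ∈ ·) (Fin.snoc v c)) → ∃ y c, K y c ∧ ¬ φ.Sat (· ∈ ·) (Fin.snoc v c)) ∧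
      ∀ x, E x u ↔ ∃ a, K x a := by
  obtain ⟨s, hs⟩ := (hc.insert ∅).exists_eq_range (Set.insert_nonempty _ _)
  obtain ⟨G, hG⟩ := exists_gen2 X0 (Req2 s) (exists_req2 s)
  obtain ⟨u, hu⟩ := K_univ G hG
  refine ⟨G.M, G.E, K G, u, (show Function.Surjective G.cl from G.cl_surjective).countable,
    wf_E G hG, fun n φ h v => ?_, fun x y a b => K_iff G, fun x y b hy h => ?_, fun a ha => ?_,
    fun n φ => K_skolem G hG φ, hu⟩
  · choose t ht using fun j => G.cl_surjective (v j)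
    obtain rfl : (fun j => G.cl (t j)) = v := funext ht
    rw [G.truth]
    obtain ⟨m, hm⟩ := exists_bound t
    exact ⟨m, hm, h _ _⟩
  · exact h.elim (K_of_mem G hG hy) (K_of_sub G hG hD hy)
  · have : a ∈ Set.range s := hs ▸ Set.mem_insert_of_mem _ ha
    obtain ⟨n, rfl⟩ := this
    obtain ⟨k, -, hk⟩ := hG (.inr (.inl n)) 0
    have hk' : G.nu (k + 1) k = chk (s n) (G.X (k + 1)) := hk
    exact ⟨G.cl k, k, k + 1, rfl, by omega, by rw [hk']; exact feq_refl _⟩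

end Vale.Agent.N323
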