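import Vale.Agent.P323.Z.Final
import Vale.Agent.N323.Gen
import Vale.Agent.N323.Collapse

/-!
# Countable transitive models of ZF + PP + not AC over a rank initial segment with ZFC (helper80)
-/

set_option autoImplicit false

namespace Vale.Agent.N323

open CategoryTheory Vale.Agent.P323.Z Vale.Agent.P323.F

theorem exists_transitive_of {C : Type 1} [Category.{1} C] (X0 : C) (hPP : PPForced C)
    (hAC : NoAC C) (hD : SmallDec C) (A : ZFSet.{0}) (hA : A.IsTransitive)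
    (hc : (A : Set ZFSet.{0}).Countable) :
    ∃ T W : ZFSet.{0}, (T : Set ZFSet.{0}).Countable ∧ T.IsTransitive ∧
      IsZFModel (fun x y : T => x.1 ∈ y.1) ∧ PP (fun x y : T => x.1 ∈ y.1) ∧
      ¬ AC (fun x y : T => x.1 ∈ y.1) ∧
      A ∈ W ∧ W ∈ T ∧ W.IsTransitive ∧ (∀ x ∈ W, ∀ y ∈ T, y ⊆ x → y ∈ W) ∧
      IsZFModel (fun x y : W => x.1 ∈ y.1) ∧ AC (fun x y : W => x.1 ∈ y.1) ∧
      ∃ j : W → ZFSet.{0}, (∀ a : W, a.1 ∈ A → j a = a.1) ∧
        ∀ (n : ℕ) (φ : LSet.BoundedFormula Empty n) (v : Fin n → W),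
          Sat (fun x y : W => x.1 ∈ y.1) φ v ↔
            Sat (fun x y : ZFSet.{0} => x ∈ y) φ (fun i => j (v i)) := by
  obtain ⟨M, E, K, u, hM, wf, hV, hK, hK2, hKA, hSk, hu⟩ :=
    exists_wf_model hD X0 (insert A (A : Set ZFSet.{0})) (hc.insert A)
  have hZ : ZFNames (atomicOf C) := zfNames C
  obtain ⟨π, hπi, hπ⟩ := exists_collapse E wf (isZFModel_of_valid hZ hV).extensionality
  have hE : ∀ x y, π x ∈ π y ↔ E x y := fun x y =>
    ⟨fun h => by
      obtain ⟨z, h1, h2⟩ := (hπ y _).1 h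
      rwa [← hπi h2], fun h => (hπ y _).2 ⟨x, h, rfl⟩⟩
  -- the model `T`
  let e : M → (ZFSet.range π : ZFSet.{0}) := fun x => ⟨π x, ZFSet.mem_range_self x⟩
  have he : Function.Surjective e := by
    rintro ⟨t, ht⟩
    obtain ⟨x, rfl⟩ := ZFSet.mem_range.1 ht
    exact ⟨x, rfl⟩
  have hVT : ∀ (n : ℕ) (φ : Fml n), Valid (atomicOf C) φ →
      ∀ v : Fin n → (ZFSet.range π : ZFSet.{0}), φ.Sat (fun x y => x.1 ∈ y.1) v := by
    intro n φ h v
    choose w hw using fun i => he (v i)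
    obtain rfl : (fun i => e (w i)) = v := funext hw
    refine (tarski_vaught e (fun x y h => hπi (congrArg Subtype.val h))
      (fun x y => (hE x y).symm) ?_ φ w).1 (hV n φ h w)
    rintro n φ v ⟨c, hc⟩
    obtain ⟨y, rfl⟩ := he c
    exact ⟨y, hc⟩
  -- the standard part `W`
  have hW : ∀ w : (π u : ZFSet.{0}), ∃ x a, π x = w.1 ∧ K x a := by
    rintro ⟨w, hw⟩
    obtain ⟨x, h1, h2⟩ := (hπ u w).1 hw
    obtain ⟨a, ha⟩ := (hu x).1 h1
    exact ⟨x, a, h2, ha⟩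
  choose p j hp hj using hW
  have hin : ∀ {x a}, K x a → π x ∈ π u := fun h => (hE _ _).2 ((hu _).2 ⟨_, h⟩)
  have hjK : ∀ {x a} (h : K x a), j ⟨π x, hin h⟩ = a := fun h =>
    (hK _ _ _ _ (hj _) h).1.1 (hπi (hp _))
  have hel : ∀ {n : ℕ} (φ : Fml n) (v : Fin n → (π u : ZFSet.{0})),
      φ.Sat (fun x y => x.1 ∈ y.1) v ↔ φ.Sat (fun x y : ZFSet.{0} => x ∈ y) (fun i => j (v i)) := by
    intro n φ v
    refine tarski_vaught j (fun x y h => Subtype.ext ?_) (fun x y => ?_) ?_ φ v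
    · rw [← hp x, ← hp y, (hK _ _ _ _ (hj x) (hj y)).1.2 h]
    · rw [← hp x, ← hp y, hE]
      exact (hK _ _ _ _ (hj x) (hj y)).2
    · intro n φ v h
      obtain ⟨y, c, h1, h2⟩ := hSk n φ (fun i => p (v i)) (fun i => j (v i)) (fun i => hj _) h
      exact ⟨⟨π y, hin h1⟩, by rwa [hjK h1]⟩
  have hfix : ∀ a : ZFSet.{0}, a ∈ insert A (A : Set ZFSet.{0}) → ∀ x, K x a → π x = a := by
    intro a
    induction a using ZFSet.inductionOn with
    | _ a ih =>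
      intro ha x hx
      have hsub : ∀ b ∈ a, b ∈ insert A (A : Set ZFSet.{0}) := by
        intro b hb
        rcases ha with rfl | ha
        · exact Or.inr hb
        · exact Or.inr (hA.mem_trans hb ha)
      ext z
      rw [hπ]
      constructor
      · rintro ⟨y, h1, rfl⟩
        obtain ⟨b, hb⟩ := hK2 y x a hx (Or.inl h1)
        have h2 : b ∈ a := (hK _ _ _ _ hb hx).2.1 h1
        rwa [ih b h2 (hsub b h2) y hb]
      · intro hz
        obtain ⟨y, hy⟩ := hKA z (hsub z hz)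
        exact ⟨y, (hK _ _ _ _ hy hx).2.2 hz, ih z hz (hsub z hz) y hy⟩
  refine ⟨ZFSet.range π, π u, ?_, ?_, isZFModel_of_valid hZ hVT, ?_, ?_, ?_,
    ZFSet.mem_range_self u, ?_, ?_, ?_, ?_, j, ?_, fun n φ v => ?_⟩
  · rw [ZFSet.coe_range]
    exact Set.countable_range π
  · intro t ht z hz
    obtain ⟨x, rfl⟩ := ZFSet.mem_range.1 ht
    obtain ⟨y, -, rfl⟩ := (hπ x z).1 hz
    exact ZFSet.mem_range_self y
  · exact (Fml.sat_ppF _ ![]).1 (hVT 0 Fml.ppF (valid_ppF (opPair C) hPP) ![])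
  · have := hVT 0 (Fml.neg Fml.acF) (valid_neg_acF (opPair C) hAC) ![]
    rwa [Fml.sat_neg, Fml.sat_acF] at this
  · obtain ⟨x, hx⟩ := hKA A (Or.inl rfl)
    exact hfix A (Or.inl rfl) x hx ▸ hin hx
  · intro t ht z hz
    have h0 := hp ⟨t, ht⟩
    rw [← show π (p ⟨t, ht⟩) = t from h0] at hz
    obtain ⟨y, h1, rfl⟩ := (hπ _ z).1 hz
    obtain ⟨b, hb⟩ := hK2 y _ _ (hj ⟨t, ht⟩) (Or.inl h1)
    exact hin hb
  · intro t ht y hy hyt
    obtain ⟨x, rfl⟩ := ZFSet.mem_range.1 hy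
    have h0 : π (p ⟨t, ht⟩) = t := hp ⟨t, ht⟩
    obtain ⟨b, hb⟩ := hK2 x _ _ (hj ⟨t, ht⟩) (Or.inr fun z hz =>
      (hE _ _).1 (by rw [h0]; exact hyt ((hE _ _).2 hz)))
    exact hin hb
  · exact isZFModel_of_univ fun n φ h v => (hel φ v).2 (h _)
  · exact (Fml.sat_acF _ ![]).1 ((hel Fml.acF ![]).2 ((Fml.sat_acF _ _).2 ac_univ))
  · intro a ha
    obtain ⟨x, hx⟩ := hKA a.1 (Or.inr ha)
    have h1 : a = ⟨π x, hin hx⟩ := Subtype.ext (hfix _ (Or.inr ha) x hx).symm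
    conv_lhs => rw [h1]
    exact hjK hx
  · rw [← Fml.sat_ofBF, ← Fml.sat_ofBF]
    exact hel _ v

/-- Countable transitive models of ZF + PP + not AC with a rank initial segment that is an
elementary copy of the universe. -/
theorem exists_transitive (A : ZFSet.{0}) (hA : A.IsTransitive)
    (hc : (A : Set ZFSet.{0}).Countable) :
    ∃ T W : ZFSet.{0}, (T : Set ZFSet.{0}).Countable ∧ T.IsTransitive ∧
      IsZFModel (fun x y : T => x.1 ∈ y.1) ∧ PP (fun x y : T => x.1 ∈ y.1) ∧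
      ¬ AC (fun x y : T => x.1 ∈ y.1) ∧
      A ∈ W ∧ W ∈ T ∧ W.IsTransitive ∧ (∀ x ∈ W, ∀ y ∈ T, y ⊆ x → y ∈ W) ∧
      IsZFModel (fun x y : W => x.1 ∈ y.1) ∧ AC (fun x y : W => x.1 ∈ y.1) ∧
      ∃ j : W → ZFSet.{0}, (∀ a : W, a.1 ∈ A → j a = a.1) ∧
        ∀ (n : ℕ) (φ : LSet.BoundedFormula Empty n) (v : Fin n → W),
          Sat (fun x y : W => x.1 ∈ y.1) φ v ↔
            Sat (fun x y : ZFSet.{0} => x ∈ y) φ (fun i => j (v i)) := by
  obtain ⟨D, _, ⟨tw⟩⟩ := P323.H709.exists_tower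
  let _ := tw
  have X0 : CObj D := ⟨TwBase.a 0, fun _ => none, by
    have : IsEmpty {z : Dn (TwBase.a (D := D) 0) // (none : Option Bool) ≠ none} :=
      ⟨fun z => z.2 rfl⟩
    infer_instance⟩
  exact exists_transitive_of X0 (ppForced D) (P323.H341.noAC D) (smallDec D) A hA hc

end Vale.Agent.N323
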